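import Vale.Agent.P342.H861.JuntaDefs

/-! Smoothed distance functions: bounded `l_1`-gradient for functions that are Lipschitz in the sup norm. -/

namespace Vale.Agent.P342.AL.Smooth

open Finset

variable {I : Type} [Fintype I] [DecidableEq I]

/-- window average -/
noncomputable def win (s : ℕ) (d : (I → ℝ) → ℝ) (x : I → ℝ) : ℝ :=
  (∑ v : I → Fin s, d (x + fun i => ((v i : ℕ) : ℝ))) / (Fintype.card (I → Fin s))

lemma win_lip (s : ℕ) (d : (I → ℝ) → ℝ) (hd : ∀ x y, |d x - d y| ≤ dist x y) (x y : I → ℝ) :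
    |win s d x - win s d y| ≤ dist x y := by
  unfold win
  rw [← sub_div, ← Finset.sum_sub_distrib, abs_div, Nat.abs_cast]
  apply div_le_of_le_mul₀ (by positivity) dist_nonneg
  calc |∑ v : I → Fin s, (d (x + fun i => ((v i : ℕ) : ℝ)) - d (y + fun i => ((v i : ℕ) : ℝ)))|
      ≤ ∑ v : I → Fin s, |d (x + fun i => ((v i : ℕ) : ℝ)) - d (y + fun i => ((v i : ℕ) : ℝ))| :=
        Finset.abs_sum_le_sum_abs _ _
    _ ≤ ∑ v : I → Fin s, dist x y := by
        apply Finset.sum_le_sum
        intro v _
        refine (hd _ _).trans ?_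
        rw [dist_add_right]
    _ = dist x y * (Fintype.card (I → Fin s) : ℝ) := by
        rw [Finset.sum_const, nsmul_eq_mul, mul_comm, Finset.card_univ]

/-- extension of a window vector without the coordinate `i` -/
def ext0 (s : ℕ) (i : I) (w : {j // j ≠ i} → Fin s) : I → ℝ :=
  fun j => if h : j ≠ i then ((w ⟨j, h⟩ : ℕ) : ℝ) else 0

lemma win_tele (s : ℕ) (d : (I → ℝ) → ℝ) (i : I) (y : I → ℝ) :
    (∑ v : I → Fin s, (d (y + Pi.single i 1 + fun i => ((v i : ℕ) : ℝ))
      - d (y + fun i => ((v i : ℕ) : ℝ)))) =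
    ∑ w : {j // j ≠ i} → Fin s, (d (y + (Pi.single i (s : ℝ)) + ext0 s i w)
      - d (y + ext0 s i w)) := by
  rw [← (Equiv.funSplitAt i (Fin s)).symm.sum_comp, Fintype.sum_prod_type_right]
  apply Finset.sum_congr rfl
  intro w _
  have h1 : ∀ a : Fin s, (fun j => ((((Equiv.funSplitAt i (Fin s)).symm (a, w) j : Fin s) : ℕ) : ℝ))
      = Pi.single i (((a : ℕ) : ℝ)) + ext0 s i w := by
    intro a
    funext j
    by_cases h : j = i
    · subst h; simp [ext0, Equiv.funSplitAt, Equiv.piSplitAt]
    · simp [ext0, Equiv.funSplitAt, Equiv.piSplitAt, h]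
  simp_rw [h1]
  have h2 : ∀ a : Fin s, d (y + Pi.single i 1 + (Pi.single i ((a : ℕ) : ℝ) + ext0 s i w))
      - d (y + (Pi.single i ((a : ℕ) : ℝ) + ext0 s i w)) =
      d (y + Pi.single i (((a : ℕ) + 1 : ℕ) : ℝ) + ext0 s i w)
        - d (y + Pi.single i ((a : ℕ) : ℝ) + ext0 s i w) := by
    intro a
    congr 1
    · congr 1
      funext j
      by_cases h : j = i
      · subst h; simp; ring
      · simp [h]
    · congr 1
      rw [add_assoc]
  rw [Finset.sum_congr rfl (fun a _ => h2 a)]
  have h3 := Fin.sum_univ_eq_sum_range (fun n : ℕ => d (y + (Pi.single i (((n + 1 : ℕ) : ℝ)) : I → ℝ)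
        + ext0 s i w) - d (y + (Pi.single i ((n : ℕ) : ℝ) : I → ℝ) + ext0 s i w)) s
  rw [h3]
  rw [Finset.sum_range_sub (fun n : ℕ => d (y + (Pi.single i ((n : ℕ) : ℝ) : I → ℝ) + ext0 s i w)) s]
  simp

lemma win_second {s : ℕ} (hs : 0 < s) (d : (I → ℝ) → ℝ) (hd : ∀ x y, |d x - d y| ≤ dist x y)
    (i : I) (x z : I → ℝ) :
    |(win s d (x + z + Pi.single i 1) - win s d (x + z)) -
      (win s d (x + Pi.single i 1) - win s d x)| ≤ 2 * ‖z‖ / s := by
  have hcard : (Fintype.card (I → Fin s) : ℝ) = s * Fintype.card ({j // j ≠ i} → Fin s) := by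
    rw [Fintype.card_congr (Equiv.funSplitAt i (Fin s)), Fintype.card_prod]
    simp
  have hpos : (0 : ℝ) < Fintype.card ({j // j ≠ i} → Fin s) := by
    have : Nonempty (Fin s) := ⟨⟨0, hs⟩⟩
    exact_mod_cast Fintype.card_pos
  have hs' : (0 : ℝ) < s := by exact_mod_cast hs
  have h1 : ∀ y, win s d (y + Pi.single i 1) - win s d y =
      (∑ w : {j // j ≠ i} → Fin s, (d (y + (Pi.single i (s : ℝ)) + ext0 s i w)
      - d (y + ext0 s i w))) / (s * Fintype.card ({j // j ≠ i} → Fin s)) := by
    intro y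
    rw [← win_tele, ← hcard]
    unfold win
    rw [← sub_div, ← Finset.sum_sub_distrib]
  rw [h1, h1, ← sub_div, ← Finset.sum_sub_distrib, abs_div]
  rw [abs_of_pos (mul_pos hs' hpos)]
  rw [div_le_div_iff₀ (mul_pos hs' hpos) hs']
  calc |∑ w : {j // j ≠ i} → Fin s, ((d (x + z + (Pi.single i (s : ℝ)) + ext0 s i w)
      - d (x + z + ext0 s i w)) - (d (x + (Pi.single i (s : ℝ)) + ext0 s i w)
      - d (x + ext0 s i w)))| * s
      ≤ (∑ w : {j // j ≠ i} → Fin s, 2 * ‖z‖) * s := by
        apply mul_le_mul_of_nonneg_right _ hs'.le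
        refine (Finset.abs_sum_le_sum_abs _ _).trans ?_
        apply Finset.sum_le_sum
        intro w _
        have a1 := hd (x + z + (Pi.single i (s : ℝ)) + ext0 s i w) (x + (Pi.single i (s : ℝ)) + ext0 s i w)
        have a2 := hd (x + z + ext0 s i w) (x + ext0 s i w)
        have b1 : dist (x + z + (Pi.single i (s : ℝ)) + ext0 s i w) (x + (Pi.single i (s : ℝ)) + ext0 s i w) = ‖z‖ := by
          rw [dist_eq_norm]; congr 1; abel
        have b2 : dist (x + z + ext0 s i w) (x + ext0 s i w) = ‖z‖ := by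
          rw [dist_eq_norm]; congr 1; abel
        rw [b1] at a1
        rw [b2] at a2
        rw [abs_le] at a1 a2 ⊢
        constructor <;> linarith [a1.1, a1.2, a2.1, a2.2]
    _ = 2 * ‖z‖ * (s * Fintype.card ({j // j ≠ i} → Fin s)) := by
        rw [Finset.sum_const, nsmul_eq_mul, Finset.card_univ]; ring

/-- the indicator vector of a finite set -/
def ind (P : Finset I) : I → ℝ := fun i => if i ∈ P then 1 else 0

lemma ind_norm (P : Finset I) : ‖ind P‖ ≤ 1 := by
  rw [pi_norm_le_iff_of_nonneg zero_le_one]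
  intro i
  unfold ind
  split_ifs <;> simp

omit [Fintype I] in
lemma ind_insert {P : Finset I} {i : I} (h : i ∉ P) : ind (insert i P) = ind P + Pi.single i 1 := by
  funext j
  by_cases hj : j = i
  · subst hj; simp [ind, h]
  · simp [ind, hj]

lemma win_path {s : ℕ} (hs : 0 < s) (d : (I → ℝ) → ℝ) (hd : ∀ x y, |d x - d y| ≤ dist x y)
    (x : I → ℝ) (P : Finset I) :
    |win s d (x + ind P) - win s d x - ∑ i ∈ P, (win s d (x + Pi.single i 1) - win s d x)|
      ≤ 2 * P.card / s := by
  have hs' : (0 : ℝ) < s := by exact_mod_cast hs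
  induction P using Finset.induction_on with
  | empty =>
    have : ind (∅ : Finset I) = 0 := by funext j; simp [ind]
    simp [this]
  | insert i P hi ih =>
    rw [Finset.sum_insert hi, ind_insert hi, Finset.card_insert_of_notMem hi, ← add_assoc]
    have h2 := win_second hs d hd i x (ind P)
    have h3 : 2 * ‖ind P‖ / s ≤ 2 / s := by
      apply div_le_div_of_nonneg_right _ hs'.le
      linarith [ind_norm P]
    have h4 := h2.trans h3
    have h5 : (2 * ((P.card + 1 : ℕ) : ℝ) / s) = 2 * (P.card : ℝ) / s + 2 / s := by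
      push_cast; ring
    rw [h5]
    rw [abs_le] at ih h4 ⊢
    constructor <;> linarith [ih.1, ih.2, h4.1, h4.2]

lemma win_grad {s : ℕ} (hs : Fintype.card I ≤ s) (hs0 : 0 < s) (d : (I → ℝ) → ℝ)
    (hd : ∀ x y, |d x - d y| ≤ dist x y) (x : I → ℝ) :
    ∑ i, |win s d (x + Pi.single i 1) - win s d x| ≤ 6 := by
  classical
  have hs' : (0 : ℝ) < s := by exact_mod_cast hs0
  set G : I → ℝ := fun i => win s d (x + Pi.single i 1) - win s d x with hG
  have hP : ∀ P : Finset I, |∑ i ∈ P, G i| ≤ 3 := by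
    intro P
    have h1 := win_path hs0 d hd x P
    have h2 := win_lip s d hd (x + ind P) x
    have h3 : dist (x + ind P) x ≤ 1 := by
      rw [dist_eq_norm, add_sub_cancel_left]; exact ind_norm P
    have h4 : 2 * (P.card : ℝ) / s ≤ 2 := by
      rw [div_le_iff₀ hs']
      have : (P.card : ℝ) ≤ s := by
        exact_mod_cast (Finset.card_le_univ P).trans hs
      linarith
    rw [abs_le] at h1 h2 ⊢
    constructor <;> linarith [h1.1, h1.2, h2.1, h2.2]
  have h1 := hP (Finset.univ.filter (fun i => 0 ≤ G i))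
  have h2 := hP (Finset.univ.filter (fun i => ¬ 0 ≤ G i))
  have h3 : ∑ i, |G i| = ∑ i ∈ Finset.univ.filter (fun i => 0 ≤ G i), G i
      - ∑ i ∈ Finset.univ.filter (fun i => ¬ 0 ≤ G i), G i := by
    rw [← Finset.sum_filter_add_sum_filter_not Finset.univ (fun i => 0 ≤ G i) (fun i => |G i|)]
    rw [sub_eq_add_neg, ← Finset.sum_neg_distrib]
    congr 1
    · apply Finset.sum_congr rfl
      intro i hi
      rw [Finset.mem_filter] at hi
      exact abs_of_nonneg hi.2
    · apply Finset.sum_congr rfl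
      intro i hi
      rw [Finset.mem_filter] at hi
      exact abs_of_neg (not_le.mp hi.2)
  rw [h3]
  rw [abs_le] at h1 h2
  linarith [h1.1, h1.2, h2.1, h2.2]

lemma win_close {s : ℕ} (hs0 : 0 < s) (d : (I → ℝ) → ℝ) (x : I → ℝ) (a : ℝ)
    (ha : ∀ y, dist y x ≤ s → d y ≤ a) : win s d x ≤ a := by
  have : Nonempty (Fin s) := ⟨⟨0, hs0⟩⟩
  have hpos : (0 : ℝ) < Fintype.card (I → Fin s) := by exact_mod_cast Fintype.card_pos
  unfold win
  rw [div_le_iff₀ hpos]
  calc _ ≤ ∑ v : I → Fin s, a := by
        apply Finset.sum_le_sum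
        intro v _
        apply ha
        rw [dist_eq_norm, add_sub_cancel_left, pi_norm_le_iff_of_nonneg (by positivity)]
        intro i
        rw [Real.norm_eq_abs, Nat.abs_cast]
        exact_mod_cast (v i).2.le
    _ = _ := by rw [Finset.sum_const, nsmul_eq_mul, mul_comm, Finset.card_univ]

lemma win_close' {s : ℕ} (hs0 : 0 < s) (d : (I → ℝ) → ℝ) (x : I → ℝ) (a : ℝ)
    (ha : ∀ y, dist y x ≤ s → a ≤ d y) : a ≤ win s d x := by
  have : Nonempty (Fin s) := ⟨⟨0, hs0⟩⟩
  have hpos : (0 : ℝ) < Fintype.card (I → Fin s) := by exact_mod_cast Fintype.card_pos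
  unfold win
  rw [le_div_iff₀ hpos]
  calc _ = ∑ v : I → Fin s, a := by rw [Finset.sum_const, nsmul_eq_mul, mul_comm, Finset.card_univ]
    _ ≤ _ := by
        apply Finset.sum_le_sum
        intro v _
        apply ha
        rw [dist_eq_norm, add_sub_cancel_left, pi_norm_le_iff_of_nonneg (by positivity)]
        intro i
        rw [Real.norm_eq_abs, Nat.abs_cast]
        exact_mod_cast (v i).2.le

/-- the real point of a lattice point -/
def toR {k : ℕ} (x : Pt I k) : I → ℝ := fun i => ((x i : ℕ) : ℝ)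

/-- **Smoothing.** -/
theorem smooth {k : ℕ} (A : Finset (Pt I k)) (hA : A.Nonempty) {κ : ℝ} (hκ : 0 < κ)
    (hk : 16 * ((Fintype.card I : ℝ) + 1) ≤ κ * 2 ^ k) :
    ∃ h : Pt I k → ℝ, (∀ x, 0 ≤ h x ∧ h x ≤ 1) ∧ (∀ x ∈ A, h x ≤ 1 / 8) ∧
      (∀ x, (∀ v ∈ A, ∃ i, κ * 2 ^ k < |((x i : ℕ) : ℝ) - ((v i : ℕ) : ℝ)|) → h x = 1) ∧
      (∀ x, ∑ i, |dstep h i x| ≤ (12 / κ) / 2 ^ k) := by
  classical
  set s : ℕ := Fintype.card I + 1 with hs
  have hs0 : 0 < s := Nat.succ_pos _
  set K : ℝ := κ * 2 ^ k / 2 with hK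
  have hsK : (8 : ℝ) * s ≤ K := by
    rw [hK, hs]; push_cast; linarith
  have hs1 : (1 : ℝ) ≤ s := by exact_mod_cast hs0
  have hK0 : 0 < K := by linarith
  set S : Set (I → ℝ) := toR '' (A : Set (Pt I k)) with hS
  have hSne : S.Nonempty := by
    obtain ⟨a, ha⟩ := hA
    exact ⟨toR a, a, ha, rfl⟩
  set d : (I → ℝ) → ℝ := fun x => min (Metric.infDist x S) K with hdd
  have hd : ∀ x y, |d x - d y| ≤ dist x y := by
    intro x y
    have h1 : |Metric.infDist x S - Metric.infDist y S| ≤ dist x y := by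
      rw [abs_le]
      have h1 := Metric.infDist_le_infDist_add_dist (s := S) (x := x) (y := y)
      have h2 := Metric.infDist_le_infDist_add_dist (s := S) (x := y) (y := x)
      rw [dist_comm y x] at h2
      constructor <;> linarith
    exact (abs_min_sub_min_le_max _ _ _ _).trans (by simp [h1])
  refine ⟨fun x => win s d (toR x) / K, ?_, ?_, ?_, ?_⟩
  · intro x
    constructor
    · apply div_nonneg _ hK0.le
      apply win_close' hs0
      intro y _
      exact le_min Metric.infDist_nonneg hK0.le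
    · rw [div_le_one hK0]
      apply win_close hs0 d
      intro y _
      exact min_le_right _ _
  · intro x hx
    rw [div_le_iff₀ hK0]
    have : win s d (toR x) ≤ s := by
      apply win_close hs0 d
      intro y hy
      refine (min_le_left _ _).trans ?_
      exact (Metric.infDist_le_dist_of_mem (s := S) (y := toR x) ⟨x, hx, rfl⟩).trans hy
    linarith
  · intro x hx
    rw [div_eq_one_iff_eq hK0.ne']
    apply le_antisymm
    · apply win_close hs0 d
      intro y _
      exact min_le_right _ _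
    · apply win_close' hs0
      intro y hy
      apply le_min _ le_rfl
      rw [Metric.le_infDist hSne]
      rintro z ⟨v, hv, rfl⟩
      obtain ⟨i, hi⟩ := hx v hv
      have h1 : κ * 2 ^ k ≤ dist (toR x) (toR v) := by
        refine hi.le.trans ?_
        have := dist_le_pi_dist (toR x) (toR v) i
        rwa [Real.dist_eq] at this
      have h2 := dist_triangle (toR x) y (toR v)
      rw [dist_comm (toR x) y] at h2
      have h3 : (s : ℝ) ≤ K := by linarith
      have h4 : κ * 2 ^ k = 2 * K := by rw [hK]; ring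
      linarith
  · intro x
    have h6 := win_grad (s := s) (by omega) hs0 d hd (toR x)
    calc ∑ i, |dstep (fun x => win s d (toR x) / K) i x|
        ≤ ∑ i, |win s d (toR x + Pi.single i 1) - win s d (toR x)| / K := by
          apply Finset.sum_le_sum
          intro i _
          unfold dstep
          split_ifs with h
          · have : toR (Function.update x i ⟨(x i : ℕ) + 1, h⟩) = toR x + Pi.single i 1 := by
              funext j
              by_cases hj : j = i
              · subst hj; simp [toR]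
              · simp [toR, hj]
            simp only
            rw [this, ← sub_div, abs_div, abs_of_pos hK0]
          · rw [abs_zero]; positivity
      _ = (∑ i, |win s d (toR x + Pi.single i 1) - win s d (toR x)|) / K := by
          rw [Finset.sum_div]
      _ ≤ 6 / K := div_le_div_of_nonneg_right h6 hK0.le
      _ = (12 / κ) / 2 ^ k := by
          rw [hK]; field_simp; norm_num

end Vale.Agent.P342.AL.Smooth
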