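import Vale.Agent.P342.Defs
import Vale.Agent.P342.H266.Smooth

/-! The analytic lemma (module A of P342) from the junta theorem. -/

namespace Vale.Agent.P342.AL.An

open Finset

section avg

variable {I : Type} [Fintype I] [DecidableEq I] {k : ℕ}

lemma card_pt_pos : (0 : ℝ) < (Fintype.card (Pt I k) : ℝ) := by
  have : Nonempty (Fin (2 ^ k)) := ⟨⟨0, by positivity⟩⟩
  exact_mod_cast Fintype.card_pos

lemma avg_mono {f g : Pt I k → ℝ} (h : ∀ x, f x ≤ g x) : avg f ≤ avg g := by
  unfold avg
  exact div_le_div_of_nonneg_right (Finset.sum_le_sum fun x _ => h x) card_pt_pos.le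

lemma avg_nonneg {f : Pt I k → ℝ} (h : ∀ x, 0 ≤ f x) : 0 ≤ avg f := by
  unfold avg
  exact div_nonneg (Finset.sum_nonneg fun x _ => h x) card_pt_pos.le

lemma avg_const (a : ℝ) : avg (fun _ : Pt I k => a) = a := by
  unfold avg
  rw [Finset.sum_const, nsmul_eq_mul, Finset.card_univ, mul_div_cancel_left₀ _ card_pt_pos.ne']

lemma avg_add (f g : Pt I k → ℝ) : avg (fun x => f x + g x) = avg f + avg g := by
  unfold avg
  rw [Finset.sum_add_distrib, add_div]

lemma avg_mul_left (a : ℝ) (f : Pt I k → ℝ) : avg (fun x => a * f x) = a * avg f := by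
  unfold avg
  rw [← Finset.mul_sum, mul_div_assoc]

omit [Fintype I] in
lemma mix_mix (J : Finset I) (x y z : Pt I k) : mix J (mix J x y) z = mix J x z := by
  funext i
  by_cases h : i ∈ J <;> simp [mix, h]

/-- tower property -/
lemma avg_cexp (J : Finset I) (g : Pt I k → ℝ) : avg (cexp J g) = avg g := by
  have hinv : ∀ p : Pt I k × Pt I k, (mix J (mix J p.1 p.2) (mix J p.2 p.1),
      mix J (mix J p.2 p.1) (mix J p.1 p.2)) = p := by
    rintro ⟨x, y⟩
    ext i <;> by_cases h : i ∈ J <;> simp [mix, h]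
  let e : Pt I k × Pt I k ≃ Pt I k × Pt I k :=
    ⟨fun p => (mix J p.1 p.2, mix J p.2 p.1), fun p => (mix J p.1 p.2, mix J p.2 p.1),
      hinv, hinv⟩
  have h1 : ∑ x : Pt I k, ∑ y : Pt I k, g (mix J x y) = ∑ x : Pt I k, ∑ _y : Pt I k, g x := by
    rw [← Fintype.sum_prod_type', ← Fintype.sum_prod_type']
    exact e.sum_comp (fun p => g p.1)
  unfold cexp avg
  rw [← Finset.sum_div, h1]
  simp only [Finset.sum_const, nsmul_eq_mul, Finset.card_univ]
  rw [← Finset.mul_sum, mul_div_cancel_left₀ _ card_pt_pos.ne']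

lemma cexp_mix (J : Finset I) (g : Pt I k → ℝ) (x y : Pt I k) :
    cexp J g (mix J x y) = cexp J g x := by
  unfold cexp
  simp_rw [mix_mix]

lemma cexp_mul (J : Finset I) (φ g : Pt I k → ℝ) (hφ : ∀ x y, φ (mix J x y) = φ x) (x : Pt I k) :
    cexp J (fun x => φ x * g x) x = φ x * cexp J g x := by
  unfold cexp
  simp_rw [hφ]
  rw [avg_mul_left]

/-- the inequality between the variance and the two masses -/
lemma var_ineq {p r u w m : ℝ} (hp : 0 ≤ p) (hr : 0 ≤ r) (hpr : p + r ≤ 1)
    (hu' : m - 1 / 8 ≤ u) (hw : w = 1 - m) :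
    49 / 64 * (p * r) ≤ p * u ^ 2 + r * w ^ 2 := by
  have h1 : 7 / 8 ≤ u + w := by linarith
  have h2 : (7 / 8 : ℝ) ^ 2 ≤ (u + w) ^ 2 := by
    apply pow_le_pow_left₀ (by norm_num) h1
  have h3 : p * r * (7 / 8 : ℝ) ^ 2 ≤ p * r * (u + w) ^ 2 :=
    mul_le_mul_of_nonneg_left h2 (mul_nonneg hp hr)
  have h4 : p * r * (u + w) ^ 2 ≤ (p + r) * (p * u ^ 2 + r * w ^ 2) := by
    nlinarith [sq_nonneg (p * u - r * w)]
  have h5 : (p + r) * (p * u ^ 2 + r * w ^ 2) ≤ 1 * (p * u ^ 2 + r * w ^ 2) :=
    mul_le_mul_of_nonneg_right hpr (by positivity)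
  have h6 : (7 / 8 : ℝ) ^ 2 = 49 / 64 := by norm_num
  rw [h6] at h3
  linarith

/-- masses of two separated sets and the conditional variance -/
lemma mass_le (J : Finset I) (h : Pt I k → ℝ) (A B : Pt I k → ℝ)
    (hA : ∀ x, (A x = 0 ∨ A x = 1)) (hB : ∀ x, (B x = 0 ∨ B x = 1))
    (hAh : ∀ x, A x = 1 → h x ≤ 1 / 8) (hBh : ∀ x, B x = 1 → h x = 1) (x : Pt I k) :
    49 / 64 * (cexp J A x * cexp J B x) ≤ cexp J (fun x => (h x - cexp J h x) ^ 2) x := by
  set m := cexp J h x with hm
  have hA0 : ∀ x, 0 ≤ A x := fun x => by rcases hA x with h | h <;> simp [h]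
  have hB0 : ∀ x, 0 ≤ B x := fun x => by rcases hB x with h | h <;> simp [h]
  have hAB : ∀ x, A x + B x ≤ 1 := by
    intro x
    rcases hA x with a | a <;> rcases hB x with b | b
    · rw [a, b]; norm_num
    · rw [a, b]; norm_num
    · rw [a, b]; norm_num
    · have := hAh x a
      have := hBh x b
      linarith
  have key : cexp J A x * (max (m - 1 / 8) 0) ^ 2 + cexp J B x * (1 - m) ^ 2 ≤
      cexp J (fun x => (h x - cexp J h x) ^ 2) x := by
    have e1 : cexp J A x * (max (m - 1 / 8) 0) ^ 2 + cexp J B x * (1 - m) ^ 2 =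
        avg (fun y => (max (m - 1 / 8) 0) ^ 2 * A (mix J x y) + (1 - m) ^ 2 * B (mix J x y)) := by
      rw [avg_add, avg_mul_left, avg_mul_left]
      unfold cexp
      ring
    rw [e1]
    unfold cexp
    apply avg_mono
    intro y
    have e2 : avg (fun y_1 => h (mix J (mix J x y) y_1)) = m := by
      simp_rw [mix_mix]; rfl
    show _ ≤ (h (mix J x y) - avg (fun y_1 => h (mix J (mix J x y) y_1))) ^ 2
    rw [e2]
    set z := mix J x y
    rcases hA z with a | a <;> rcases hB z with b | b <;> rw [a, b]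
    · nlinarith [sq_nonneg (h z - m)]
    · rw [hBh z b]; linarith
    · have h1 := hAh z a
      rcases le_total (m - 1 / 8) 0 with h2 | h2
      · rw [max_eq_right h2]; nlinarith [sq_nonneg (h z - m)]
      · rw [max_eq_left h2]; nlinarith
    · have := hAh z a
      have := hBh z b
      linarith
  refine (var_ineq (m := m) ?_ ?_ ?_ (le_max_left _ _) rfl).trans key
  · exact avg_nonneg fun y => hA0 _
  · exact avg_nonneg fun y => hB0 _
  · unfold cexp
    rw [← avg_add]
    calc _ ≤ avg (fun _ : Pt I k => (1 : ℝ)) := avg_mono fun y => hAB _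
      _ = 1 := avg_const 1

/-- sum over the fibres of `mix` -/
lemma sum_mix (J : Finset I) (g : Pt I k → ℝ) (x : Pt I k) :
    ∑ y, g (mix J x y) = ((2 ^ k) ^ J.card : ℕ) *
      ∑ z ∈ univ.filter (fun z : Pt I k => ∀ i ∈ J, z i = x i), g z := by
  classical
  have hmap : ∀ y ∈ (univ : Finset (Pt I k)), mix J x y ∈
      univ.filter (fun z : Pt I k => ∀ i ∈ J, z i = x i) := by
    intro y _
    simp only [mem_filter, mem_univ, true_and]
    intro i hi
    simp [mix, hi]
  rw [← Finset.sum_fiberwise_of_maps_to hmap, Finset.mul_sum]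
  apply Finset.sum_congr rfl
  intro z hz
  simp only [mem_filter, mem_univ, true_and] at hz
  have h1 : univ.filter (fun y : Pt I k => mix J x y = z) =
      Fintype.piFinset (fun i => if i ∈ J then (univ : Finset (Fin (2 ^ k))) else {z i}) := by
    ext y
    simp only [mem_filter, mem_univ, true_and, Fintype.mem_piFinset]
    constructor
    · intro h i
      by_cases hi : i ∈ J
      · simp [hi]
      · rw [← h]; simp [mix, hi]
    · intro h
      funext i
      by_cases hi : i ∈ J
      · simp [mix, hi, hz i hi]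
      · have := h i
        simp only [hi, if_false, mem_singleton] at this
        simp [mix, hi, this]
  have h2 : (univ.filter (fun y : Pt I k => mix J x y = z)).card = (2 ^ k) ^ J.card := by
    rw [h1, Fintype.card_piFinset]
    have : ∀ i : I, (if i ∈ J then (univ : Finset (Fin (2 ^ k))) else {z i}).card =
        if i ∈ J then 2 ^ k else 1 := by
      intro i
      by_cases hi : i ∈ J <;> simp [hi]
    rw [Finset.prod_congr rfl (fun i _ => this i), Finset.prod_ite_mem]
    simp
  calc ∑ y ∈ univ.filter (fun y : Pt I k => mix J x y = z), g (mix J x y)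
      = ∑ y ∈ univ.filter (fun y : Pt I k => mix J x y = z), g z := by
        apply Finset.sum_congr rfl
        intro y hy
        rw [(mem_filter.1 hy).2]
    _ = _ := by rw [Finset.sum_const, nsmul_eq_mul, h2]

open Classical in
/-- density in terms of the conditional expectation -/
lemma one_le_of_dense {c : ℕ} (F : Pt I k → Fin c) (J : Finset I) (a : Fin c) (x : Pt I k)
    (h : Dense F J a x) :
    1 ≤ (c : ℝ) * cexp J (fun y => if F y = a then (1 : ℝ) else 0) x := by
  have e1 : cexp J (fun _ : Pt I k => (1 : ℝ)) x = 1 := avg_const 1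
  refine e1.symm.le.trans ?_
  unfold cexp avg
  rw [sum_mix J (fun _ => (1 : ℝ)) x, sum_mix J (fun y => if F y = a then (1 : ℝ) else 0) x]
  rw [← mul_div_assoc]
  apply div_le_div_of_nonneg_right _ card_pt_pos.le
  rw [mul_left_comm]
  apply mul_le_mul_of_nonneg_left _ (by positivity)
  rw [← Finset.sum_filter, Finset.filter_filter]
  simp only [Finset.sum_const, nsmul_eq_mul, mul_one]
  unfold Dense at h
  have h' : ((univ.filter fun y : Pt I k => ∀ i ∈ J, y i = x i).card : ℝ) ≤
    ((c * (univ.filter fun y : Pt I k => (∀ i ∈ J, y i = x i) ∧ F y = a).card : ℕ) : ℝ) := by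
    have h2 := h
    convert (Nat.cast_le (α := ℝ)).2 h2
  push_cast at h'
  exact h'

end avg

lemma cast_dst {Q : ℕ} (a b : Fin Q) : ((dst a b : ℕ) : ℝ) = |((a : ℕ) : ℝ) - ((b : ℕ) : ℝ)| := by
  unfold dst
  rcases le_total (a : ℕ) (b : ℕ) with h | h
  · rw [Nat.sub_eq_zero_of_le h, Nat.max_eq_right (Nat.zero_le _), Nat.cast_sub h, abs_sub_comm,
      abs_of_nonneg]
    have : ((a : ℕ) : ℝ) ≤ ((b : ℕ) : ℝ) := by exact_mod_cast h
    linarith
  · rw [Nat.sub_eq_zero_of_le h, Nat.max_eq_left (Nat.zero_le _), Nat.cast_sub h,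
      abs_of_nonneg]
    have : ((b : ℕ) : ℝ) ≤ ((a : ℕ) : ℝ) := by exact_mod_cast h
    linarith

open Classical in
/-- one colour -/
lemma one_colour {I : Type} [Fintype I] [DecidableEq I] {k c D : ℕ} (hD : 0 < D)
    (F : Pt I k → Fin c) (a : Fin c) (J : Finset I) (η : ℝ)
    (h : Pt I k → ℝ) (hA : ∀ x, F x = a → h x ≤ 1 / 8)
    (hB : ∀ x, (∀ v, F v = a → ∃ i, (1 / D : ℝ) * 2 ^ k < |((x i : ℕ) : ℝ) - ((v i : ℕ) : ℝ)|) →
      h x = 1)
    (hη : cvar J h ≤ η * (49 / 64) / (c + 1)) (hη0 : 0 < η) :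
    ((univ.filter fun x : Pt I k => Dense F J a x ∧ Far D F a x).card : ℝ) ≤
      η * (2 ^ k : ℝ) ^ Fintype.card I := by
  set A : Pt I k → ℝ := fun y => if F y = a then (1 : ℝ) else 0 with hAdef
  set B : Pt I k → ℝ := fun y => if Far D F a y then (1 : ℝ) else 0 with hBdef
  have hD' : (0 : ℝ) < D := by exact_mod_cast hD
  have hFar : ∀ x, Far D F a x → h x = 1 := by
    intro x hx
    apply hB
    intro v hv
    obtain ⟨i, hi⟩ := hx v hv
    refine ⟨i, ?_⟩
    rw [← cast_dst]
    have : ((2 ^ k : ℕ) : ℝ) < ((D * dst (x i) (v i) : ℕ) : ℝ) := by exact_mod_cast hi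
    push_cast at this
    rw [one_div, inv_mul_lt_iff₀ hD']
    exact this
  have hpt : ∀ x, (if Dense F J a x ∧ Far D F a x then (1 : ℝ) else 0) ≤
      c * (cexp J A x * B x) := by
    intro x
    have hc0 : 0 ≤ cexp J A x := avg_nonneg fun y => by
      simp only [hAdef]; split_ifs <;> norm_num
    have hb0 : 0 ≤ B x := by simp only [hBdef]; split_ifs <;> norm_num
    split_ifs with hx
    · have hd := one_le_of_dense F J a x hx.1
      have hb : B x = 1 := by simp [hBdef, hx.2]
      rw [hb, mul_one]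
      exact hd
    · positivity
  have h1 : avg (fun x => if Dense F J a x ∧ Far D F a x then (1 : ℝ) else 0) ≤
      c * avg (fun x => cexp J A x * B x) := by
    rw [← avg_mul_left]
    exact avg_mono hpt
  have h2 : avg (fun x => cexp J A x * B x) = avg (fun x => cexp J A x * cexp J B x) := by
    rw [← avg_cexp J (fun x => cexp J A x * B x)]
    congr 1
    funext x
    exact cexp_mul J (cexp J A) B (fun x y => cexp_mix J A x y) x
  have h3 : 49 / 64 * avg (fun x => cexp J A x * cexp J B x) ≤ cvar J h := by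
    rw [← avg_mul_left]
    unfold cvar
    rw [← avg_cexp J (fun x => (h x - cexp J h x) ^ 2)]
    apply avg_mono
    intro x
    apply mass_le J h A B
    · intro x; simp only [hAdef]; split_ifs <;> simp
    · intro x; simp only [hBdef]; split_ifs <;> simp
    · intro x hx
      apply hA
      by_contra hne
      simp [hAdef, hne] at hx
    · intro x hx
      apply hFar
      by_contra hne
      simp [hBdef, hne] at hx
  have hc : (0 : ℝ) < c + 1 := by positivity
  have h4 : avg (fun x => if Dense F J a x ∧ Far D F a x then (1 : ℝ) else 0) ≤ η := by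
    refine h1.trans ?_
    rw [h2]
    have h5 : avg (fun x => cexp J A x * cexp J B x) ≤ η / (c + 1) := by
      have h6 := h3.trans hη
      have h7 : η * (49 / 64) / ((c : ℝ) + 1) = 49 / 64 * (η / (c + 1)) := by ring
      rw [h7] at h6
      linarith
    calc (c : ℝ) * avg (fun x => cexp J A x * cexp J B x) ≤ c * (η / (c + 1)) :=
          mul_le_mul_of_nonneg_left h5 (by positivity)
      _ = η * (c / (c + 1)) := by ring
      _ ≤ η * 1 := by
          apply mul_le_mul_of_nonneg_left _ hη0.le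
          rw [div_le_one hc]; linarith
      _ = η := mul_one _
  unfold avg at h4
  rw [div_le_iff₀ card_pt_pos] at h4
  rw [← Finset.sum_filter, Finset.sum_const, nsmul_eq_mul, mul_one] at h4
  refine h4.trans (le_of_eq ?_)
  congr 1
  simp [Pt]

open Classical in
theorem analytic_of_junta (hj : JuntaStmt) (c D : ℕ) (hD : 0 < D) (η : ℝ) (hη : 0 < η) : ∃ L : ℕ,
    ∀ (I : Type) [Fintype I] [DecidableEq I], ∃ k0 : ℕ, ∀ k, k0 ≤ k →
    ∀ F : (I → Fin (2 ^ k)) → Fin c, ∃ J : Finset I, J.card ≤ L ∧ ∀ a : Fin c,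
      ((univ.filter fun x : I → Fin (2 ^ k) => Dense F J a x ∧ Far D F a x).card : ℝ) ≤
        η * (2 ^ k : ℝ) ^ Fintype.card I := by
  have hD' : (0 : ℝ) < D := by exact_mod_cast hD
  obtain ⟨L0, hL0⟩ := hj (12 / (1 / D)) (η * (49 / 64) / (c + 1)) (by positivity) (by positivity)
  refine ⟨c * L0, ?_⟩
  intro I _ _
  refine ⟨16 * (Fintype.card I + 1) * D, ?_⟩
  intro k hk F
  have hk' : 16 * ((Fintype.card I : ℝ) + 1) ≤ (1 / D : ℝ) * 2 ^ k := by
    have h1 : 16 * (Fintype.card I + 1) * D ≤ 2 ^ k := hk.trans Nat.lt_two_pow_self.le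
    have h2 : ((16 * (Fintype.card I + 1) * D : ℕ) : ℝ) ≤ ((2 ^ k : ℕ) : ℝ) := by exact_mod_cast h1
    push_cast at h2
    rw [one_div, inv_mul_eq_div, le_div_iff₀ hD']
    exact h2
  have key : ∀ a : Fin c, ∃ Ja : Finset I, Ja.card ≤ L0 ∧ ∀ J, Ja ⊆ J →
      ((univ.filter fun x : I → Fin (2 ^ k) => Dense F J a x ∧ Far D F a x).card : ℝ) ≤
        η * (2 ^ k : ℝ) ^ Fintype.card I := by
    intro a
    by_cases hne : ∃ v, F v = a
    · obtain ⟨h, h01, hA, hB, hgrad⟩ := Smooth.smooth (univ.filter fun v : Pt I k => F v = a)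
        (by obtain ⟨v, hv⟩ := hne; exact ⟨v, by simp [hv]⟩) (κ := 1 / D) (by positivity) hk'
      obtain ⟨Ja, hJa, hvar⟩ := hL0 I k h hgrad
      refine ⟨Ja, hJa, ?_⟩
      intro J hJ
      refine one_colour hD F a J η h (fun x hx => hA x (by simp [hx])) ?_ (hvar J hJ) hη
      intro x hx
      apply hB
      intro v hv
      exact hx v (by simpa using hv)
    · refine ⟨∅, by simp, ?_⟩
      intro J _
      have : (univ.filter fun x : I → Fin (2 ^ k) => Dense F J a x ∧ Far D F a x) = ∅ := by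
        rw [Finset.filter_eq_empty_iff]
        rintro x _ ⟨hd, _⟩
        unfold Dense at hd
        have h0 : (univ.filter fun y : I → Fin (2 ^ k) => (∀ i ∈ J, y i = x i) ∧ F y = a) = ∅ := by
          rw [Finset.filter_eq_empty_iff]
          rintro y _ ⟨_, hy⟩
          exact hne ⟨y, hy⟩
        have h1 : 0 < (univ.filter fun y : I → Fin (2 ^ k) => ∀ i ∈ J, y i = x i).card :=
          Finset.card_pos.2 ⟨x, by simp⟩
        have h2 : (univ.filter fun y : I → Fin (2 ^ k) => ∀ i ∈ J, y i = x i).card ≤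
            c * (univ.filter fun y : I → Fin (2 ^ k) => (∀ i ∈ J, y i = x i) ∧ F y = a).card := by
          convert hd
        rw [h0] at h2
        simp only [Finset.card_empty, mul_zero] at h2
        omega
      rw [this]
      simp only [Finset.card_empty, Nat.cast_zero]
      positivity
  choose Ja hJa1 hJa2 using key
  refine ⟨univ.biUnion Ja, ?_, ?_⟩
  · calc (univ.biUnion Ja).card ≤ ∑ a : Fin c, (Ja a).card := Finset.card_biUnion_le
      _ ≤ ∑ _a : Fin c, L0 := Finset.sum_le_sum fun a _ => hJa1 a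
      _ = c * L0 := by simp
  · intro a
    exact hJa2 a _ (Finset.subset_biUnion_of_mem Ja (mem_univ a))

end Vale.Agent.P342.AL.An
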