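import Vale.Agent.P342.H266.Analytic
import Vale.Agent.P342.H861.Junta2

/-! Module A of P342: the analytic lemma. -/

namespace Vale.Agent.P342

open Finset

open Classical in
/-- MODULE A. -/
theorem analytic (c D : ℕ) (hD : 0 < D) (η : ℝ) (hη : 0 < η) : ∃ L : ℕ,
    ∀ (I : Type) [Fintype I] [DecidableEq I], ∃ k0 : ℕ, ∀ k, k0 ≤ k →
    ∀ F : (I → Fin (2 ^ k)) → Fin c, ∃ J : Finset I, J.card ≤ L ∧ ∀ a : Fin c,
      ((univ.filter fun x : I → Fin (2 ^ k) => Dense F J a x ∧ Far D F a x).card : ℝ) ≤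
        η * (2 ^ k : ℝ) ^ Fintype.card I :=
  AL.An.analytic_of_junta AL.junta c D hD η hη

end Vale.Agent.P342
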